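import Mathlib
import Vale.Agent.P052.R2.H97.Cover

/-!
# P052: Lemma E (the extension lemma)

Everything is proved from Lemma G (`LemG`), the Borsuk-Ulam input.
-/

namespace Vale.Agent.P052.H38

open Module P052.H97

/-- `ℝ⁴`. -/
abbrev E4 := EuclideanSpace ℝ (Fin 4)

/-- Lemma G: the Borsuk-Ulam input for positive operators of `ℝ⁴` and ten colours. -/
def LemG : Prop := ∀ (Ψ : (E4 →L[ℝ] E4) → Fin 10 → ℝ),
  ContinuousOn Ψ {B | B.IsPositive} →
  (∀ B : E4 →L[ℝ] E4, B.IsPositive → ∀ i, 0 ≤ Ψ B i) → Ψ 0 = 0 →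
  (∀ B : E4 →L[ℝ] E4, B.IsPositive → B ≠ 0 → ∃ i, 0 < Ψ B i) →
  (∀ B B' : E4 →L[ℝ] E4, B.IsPositive → B'.IsPositive → B ∘L B' = 0 →
    ∀ i, Ψ B i = 0 ∨ Ψ B' i = 0) →
  ∀ v : Fin 10 → ℝ, v ≠ 0 →
    ∃ B B' : E4 →L[ℝ] E4, B.IsPositive ∧ B'.IsPositive ∧ B ∘L B' = 0 ∧
      ∃ c : ℝ, 0 < c ∧ ∀ i, Ψ B i - Ψ B' i = c * v i

theorem zs (n : ℕ) :
    (0 : ℝ) • (0 : EuclideanSpace ℝ (Fin n) →L[ℝ] EuclideanSpace ℝ (Fin n)) = 0 := by
  ext1 x
  simp

section

variable {m : ℕ} (j : EuclideanSpace ℝ (Fin m) →ₗᵢ[ℝ] E4)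

/-- the isometry as a continuous linear map. -/
noncomputable def jc : EuclideanSpace ℝ (Fin m) →L[ℝ] E4 := j.toContinuousLinearMap

/-- compression of an operator to the subspace `range j`. -/
noncomputable def comp (t : E4 →L[ℝ] E4) :
    EuclideanSpace ℝ (Fin m) →L[ℝ] EuclideanSpace ℝ (Fin m) :=
  (ContinuousLinearMap.adjoint (jc j)) ∘L t ∘L (jc j)

/-- the orthogonal projection to the complement of `range j`. -/
noncomputable def qq : E4 →L[ℝ] E4 :=
  ContinuousLinearMap.id ℝ E4 - (jc j) ∘L (ContinuousLinearMap.adjoint (jc j))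

/-- the projected basis vectors. -/
noncomputable def qv (k : Fin 4) : E4 := qq j (EuclideanSpace.single k (1 : ℝ))

theorem adj_comp_self : (ContinuousLinearMap.adjoint (jc j)) ∘L (jc j) =
    ContinuousLinearMap.id ℝ (EuclideanSpace ℝ (Fin m)) := by
  ext1 x
  refine ext_inner_right ℝ fun y => ?_
  simp only [ContinuousLinearMap.comp_apply, ContinuousLinearMap.adjoint_inner_left,
    ContinuousLinearMap.id_apply]
  exact j.inner_map_map x y

theorem adj_apply_self (x : EuclideanSpace ℝ (Fin m)) :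
    ContinuousLinearMap.adjoint (jc j) (jc j x) = x := by
  have := congrArg (fun f => f x) (adj_comp_self j)
  simpa using this

theorem continuous_comp : Continuous (comp j) := by
  unfold comp
  exact continuous_const.clm_comp (continuous_id.clm_comp continuous_const)

theorem comp_smul (r : ℝ) (t : E4 →L[ℝ] E4) : comp j (r • t) = r • comp j t := by
  unfold comp
  ext1 x
  simp

theorem comp_pos {t : E4 →L[ℝ] E4} (ht : t.IsPositive) : (comp j t).IsPositive := by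
  unfold comp
  exact ht.adjoint_conj (jc j)

/-- vectors of the complement. -/
theorem qv_inner (k : Fin 4) (x : EuclideanSpace ℝ (Fin m)) :
    inner ℝ (jc j x) (qv j k) = 0 := by
  unfold qv qq
  rw [sub_apply, inner_sub_right, ContinuousLinearMap.id_apply,
    ContinuousLinearMap.comp_apply]
  have h1 : inner ℝ (jc j x) (jc j ((ContinuousLinearMap.adjoint (jc j))
      (EuclideanSpace.single k (1 : ℝ)))) =
      inner ℝ x ((ContinuousLinearMap.adjoint (jc j)) (EuclideanSpace.single k (1 : ℝ))) :=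
    j.inner_map_map _ _
  rw [h1, ContinuousLinearMap.adjoint_inner_right, sub_self]

/-- if `t` kills the vectors `q_k` then `t` kills the complement. -/
theorem comp_qq_of_qv {t : E4 →L[ℝ] E4} (h : ∀ k, t (qv j k) = 0) : t ∘L qq j = 0 := by
  have h2 : (t ∘L qq j).toLinearMap = 0 := by
    refine (EuclideanSpace.basisFun (Fin 4) ℝ).toBasis.ext fun k => ?_
    have := h k
    unfold qv at this
    simpa using this
  ext1 x
  have := congrArg (fun f => f x) h2
  simpa using this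

/-- a self-adjoint operator killing the complement is supported on `range j`. -/
theorem eq_of_comp_qq {t : E4 →L[ℝ] E4} (ht : IsSelfAdjoint t) (h : t ∘L qq j = 0) :
    t = (jc j) ∘L (comp j t) ∘L (ContinuousLinearMap.adjoint (jc j)) := by
  set P := (jc j) ∘L (ContinuousLinearMap.adjoint (jc j)) with hP
  have hPa : ContinuousLinearMap.adjoint P = P := by
    rw [hP, ContinuousLinearMap.adjoint_comp, ContinuousLinearMap.adjoint_adjoint]
  have h1 : t = t ∘L P := by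
    have : t ∘L qq j = t - t ∘L P := by
      unfold qq
      rw [ContinuousLinearMap.comp_sub, ContinuousLinearMap.comp_id]
    rw [this, sub_eq_zero] at h
    exact h
  have hta : ContinuousLinearMap.adjoint t = t := ht
  have h2 : t = P ∘L t := by
    have := congrArg ContinuousLinearMap.adjoint h1
    rw [ContinuousLinearMap.adjoint_comp, hPa, hta] at this
    exact this
  unfold comp
  calc t = P ∘L t := h2
    _ = P ∘L (t ∘L P) := by rw [← h1]
    _ = _ := by rw [hP]; rfl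

/-- the positive operators of norm one form a compact set. -/
theorem isCompact_posOne (n : ℕ) : IsCompact {s : EuclideanSpace ℝ (Fin n) →L[ℝ]
    EuclideanSpace ℝ (Fin n) | s.IsPositive ∧ ‖s‖ = 1} := by
  have hcl : IsClosed {s : EuclideanSpace ℝ (Fin n) →L[ℝ]
      EuclideanSpace ℝ (Fin n) | s.IsPositive} := by
    have : {s : EuclideanSpace ℝ (Fin n) →L[ℝ] EuclideanSpace ℝ (Fin n) | s.IsPositive} =
        {s | ContinuousLinearMap.adjoint s = s} ∩ ⋂ x, {s | 0 ≤ inner ℝ (s x) x} := by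
      ext s
      simp only [Set.mem_ofPred_eq, Set.mem_inter_iff, Set.mem_iInter]
      rw [ContinuousLinearMap.isPositive_iff']
      exact Iff.rfl
    rw [this]
    refine IsClosed.inter ?_ ?_
    · exact isClosed_eq (ContinuousLinearMap.adjoint.continuous) continuous_id
    · refine isClosed_iInter fun x => ?_
      refine isClosed_le continuous_const ?_
      fun_prop
  have h2 : {s : EuclideanSpace ℝ (Fin n) →L[ℝ]
      EuclideanSpace ℝ (Fin n) | s.IsPositive ∧ ‖s‖ = 1} =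
      Metric.sphere 0 1 ∩ {s | s.IsPositive} := by
    ext s
    simp [and_comm]
  rw [h2]
  exact (isCompact_sphere _ _).inter_right hcl

variable {h : Fin 10 → E4 → ℝ}

theorem h_zero (hd : IsData h) (i : Fin 10) : h i 0 = 0 := by
  have := hd.hom i 0 0
  simpa using this

/-- orthogonality for positive operators with product zero. -/
theorem inner_of_comp_zero {B B' : E4 →L[ℝ] E4} (hB : B.IsPositive) (h0 : B ∘L B' = 0)
    (x y : E4) : inner ℝ (B x) (B' y) = 0 := by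
  rw [hB.inner_left_eq_inner_right]
  have : B (B' y) = (B ∘L B') y := rfl
  rw [this, h0]
  simp

/-- step 3: the constant `ε`. -/
theorem exists_eps (Φ : (EuclideanSpace ℝ (Fin m) →L[ℝ] EuclideanSpace ℝ (Fin m)) → Fin 10 → ℝ)
    (hc : Continuous Φ) (hh : ∀ (r : ℝ) s, 0 ≤ r → Φ (r • s) = r • Φ s)
    (hne : ∀ s : EuclideanSpace ℝ (Fin m) →L[ℝ] EuclideanSpace ℝ (Fin m), s.IsPositive → s ≠ 0 →
      ∃ i, 0 < Φ s i) :
    ∃ ε : ℝ, 0 < ε ∧ ∀ s : EuclideanSpace ℝ (Fin m) →L[ℝ] EuclideanSpace ℝ (Fin m),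
      s.IsPositive → s ≠ 0 → ∃ i, ε * ‖s‖ < Φ s i := by
  have hcont : Continuous fun s => Finset.univ.sup' Finset.univ_nonempty (Φ s) := by
    have : (fun s => Finset.univ.sup' Finset.univ_nonempty (Φ s)) =
        Finset.univ.sup' Finset.univ_nonempty (fun i s => Φ s i) := by
      ext s
      rw [Finset.sup'_apply]
    rw [this]
    exact Continuous.finset_sup' _ fun i _ => (continuous_apply i).comp hc
  have hkey : ∃ ε : ℝ, 0 < ε ∧ ∀ s : EuclideanSpace ℝ (Fin m) →L[ℝ] EuclideanSpace ℝ (Fin m),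
      s.IsPositive ∧ ‖s‖ = 1 → ε < Finset.univ.sup' Finset.univ_nonempty (Φ s) := by
    rcases Set.eq_empty_or_nonempty {s : EuclideanSpace ℝ (Fin m) →L[ℝ]
      EuclideanSpace ℝ (Fin m) | s.IsPositive ∧ ‖s‖ = 1} with he | hn
    · refine ⟨1, one_pos, fun s hs => ?_⟩
      have : s ∈ {s : EuclideanSpace ℝ (Fin m) →L[ℝ]
        EuclideanSpace ℝ (Fin m) | s.IsPositive ∧ ‖s‖ = 1} := hs
      rw [he] at this
      exact absurd this (Set.notMem_empty s)
    · obtain ⟨s0, hs0, hmin⟩ := (isCompact_posOne m).exists_isMinOn hn hcont.continuousOn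
      have hpos : 0 < Finset.univ.sup' Finset.univ_nonempty (Φ s0) := by
        obtain ⟨i, hi⟩ := hne s0 hs0.1 (by
          intro h0
          have := hs0.2
          rw [h0, norm_zero] at this
          exact zero_ne_one this)
        exact lt_of_lt_of_le hi (Finset.le_sup' (Φ s0) (Finset.mem_univ i))
      refine ⟨Finset.univ.sup' Finset.univ_nonempty (Φ s0) / 2, by linarith, fun s hs => ?_⟩
      have := hmin hs
      simp only [Set.mem_ofPred_eq] at this
      linarith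
  obtain ⟨ε, hε, hk⟩ := hkey
  refine ⟨ε, hε, fun s hs hs0 => ?_⟩
  have hn : 0 < ‖s‖ := norm_pos_iff.mpr hs0
  have h1 := hk (‖s‖⁻¹ • s) ⟨hs.smul_of_nonneg (inv_nonneg.mpr hn.le), by
    rw [norm_smul, norm_inv, norm_norm, inv_mul_cancel₀ hn.ne']⟩
  obtain ⟨i, -, hi⟩ := Finset.exists_mem_eq_sup' Finset.univ_nonempty (Φ (‖s‖⁻¹ • s))
  rw [hi, hh _ _ (inv_nonneg.mpr hn.le)] at h1
  refine ⟨i, ?_⟩
  have h2 : ε < ‖s‖⁻¹ * Φ s i := h1
  have h3 := mul_lt_mul_of_pos_left h2 hn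
  rw [← mul_assoc, mul_inv_cancel₀ hn.ne', one_mul] at h3
  linarith

/-- step 4: the constant `M`. -/
theorem exists_M (hd : IsData h)
    (Φ : (EuclideanSpace ℝ (Fin m) →L[ℝ] EuclideanSpace ℝ (Fin m)) → Fin 10 → ℝ)
    (hc : Continuous Φ) (hh : ∀ (r : ℝ) s, 0 ≤ r → Φ (r • s) = r • Φ s)
    (hs : ∀ s : EuclideanSpace ℝ (Fin m) →L[ℝ] EuclideanSpace ℝ (Fin m), s.IsPositive →
      ∀ i, 0 < Φ s i → ∃ x, 0 < h i (j (s x))) {ε : ℝ} (hε : 0 < ε) :
    ∃ M : ℝ, 0 ≤ M ∧ ∀ t : E4 →L[ℝ] E4, t.IsPositive → ∀ i,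
      ε * ‖t‖ + M * ∑ k, ‖t (qv j k)‖ < Φ (comp j t) i → ∃ x, 0 < h i (t x) := by
  have hcc : ∀ i, Continuous fun t : E4 →L[ℝ] E4 => Φ (comp j t) i := fun i =>
    (continuous_apply i).comp (hc.comp (continuous_comp j))
  have hsum : Continuous fun t : E4 →L[ℝ] E4 => ∑ k, ‖t (qv j k)‖ := by fun_prop
  -- the bound for one colour, on the unit sphere
  have key : ∀ i, ∃ M : ℝ, 0 ≤ M ∧ ∀ t : E4 →L[ℝ] E4, t.IsPositive → ‖t‖ = 1 →
      ε + M * ∑ k, ‖t (qv j k)‖ < Φ (comp j t) i → ∃ x, 0 < h i (t x) := by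
    intro i
    set Z : Set (E4 →L[ℝ] E4) := {t | t.IsPositive ∧ ‖t‖ = 1} ∩
      ((⋂ x, {t | h i (t x) ≤ 0}) ∩ {t | ε ≤ Φ (comp j t) i}) with hZ
    have hZc : IsCompact Z := by
      refine (isCompact_posOne 4).inter_right (IsClosed.inter ?_ ?_)
      · refine isClosed_iInter fun x => isClosed_le ?_ continuous_const
        exact (hd.cont i).comp (by fun_prop)
      · exact isClosed_le continuous_const (hcc i)
    rcases Set.eq_empty_or_nonempty Z with he | hn
    · refine ⟨0, le_rfl, fun t ht ht1 hlt => ?_⟩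
      by_contra hcon
      push Not at hcon
      have : t ∈ Z := by
        refine ⟨⟨ht, ht1⟩, Set.mem_iInter.mpr fun x => hcon x, ?_⟩
        have : ε + 0 * ∑ k, ‖t (qv j k)‖ < Φ (comp j t) i := hlt
        rw [zero_mul, add_zero] at this
        exact this.le
      rw [he] at this
      exact this
    · obtain ⟨t0, ht0, hmin⟩ := hZc.exists_isMinOn hn hsum.continuousOn
      obtain ⟨t1, ht1, hmax⟩ := hZc.exists_isMaxOn hn (hcc i).continuousOn
      have hpos : 0 < ∑ k, ‖t0 (qv j k)‖ := by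
        have hnn : ∀ k ∈ (Finset.univ : Finset (Fin 4)), 0 ≤ ‖t0 (qv j k)‖ :=
          fun k _ => norm_nonneg _
        rcases (Finset.sum_nonneg hnn).lt_or_eq with h1 | h1
        · exact h1
        · exfalso
          have h2 := (Finset.sum_eq_zero_iff_of_nonneg hnn).mp h1.symm
          have h3 : ∀ k, t0 (qv j k) = 0 := fun k => norm_eq_zero.mp (h2 k (Finset.mem_univ k))
          have h4 := eq_of_comp_qq j ht0.1.1.isSelfAdjoint (comp_qq_of_qv j h3)
          obtain ⟨x, hx⟩ := hs _ (comp_pos j ht0.1.1) i (lt_of_lt_of_le hε ht0.2.2)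
          have h5 : t0 (jc j x) = j (comp j t0 x) := by
            conv_lhs => rw [h4]
            simp only [ContinuousLinearMap.comp_apply]
            rw [adj_apply_self]
            rfl
          have h6 := Set.mem_iInter.mp ht0.2.1 (jc j x)
          simp only [Set.mem_ofPred_eq] at h6
          rw [h5] at h6
          linarith
      refine ⟨max 0 (Φ (comp j t1) i) / ∑ k, ‖t0 (qv j k)‖, by positivity,
        fun t ht ht1' hlt => ?_⟩
      by_contra hcon
      push Not at hcon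
      have hsn : 0 ≤ ∑ k, ‖t (qv j k)‖ := Finset.sum_nonneg fun k _ => norm_nonneg _
      have hMn : 0 ≤ max 0 (Φ (comp j t1) i) / ∑ k, ‖t0 (qv j k)‖ := by positivity
      have htZ : t ∈ Z := by
        refine ⟨⟨ht, ht1'⟩, Set.mem_iInter.mpr fun x => hcon x, ?_⟩
        have := mul_nonneg hMn hsn
        simp only [Set.mem_ofPred_eq]
        linarith
      have h1 : ∑ k, ‖t0 (qv j k)‖ ≤ ∑ k, ‖t (qv j k)‖ := hmin htZ
      have h2 : Φ (comp j t) i ≤ Φ (comp j t1) i := hmax htZ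
      have h3 : max 0 (Φ (comp j t1) i) ≤
          max 0 (Φ (comp j t1) i) / (∑ k, ‖t0 (qv j k)‖) * ∑ k, ‖t (qv j k)‖ := by
        calc max 0 (Φ (comp j t1) i) = max 0 (Φ (comp j t1) i) / (∑ k, ‖t0 (qv j k)‖) *
              ∑ k, ‖t0 (qv j k)‖ := by field_simp
          _ ≤ _ := by gcongr
      have h4 := le_max_right 0 (Φ (comp j t1) i)
      linarith
  choose M hM0 hM using key
  refine ⟨∑ i, M i, Finset.sum_nonneg fun i _ => hM0 i, fun t ht i hlt => ?_⟩
  have hMi : M i ≤ ∑ i, M i := Finset.single_le_sum (fun i _ => hM0 i) (Finset.mem_univ i)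
  have hsn : 0 ≤ ∑ k, ‖t (qv j k)‖ := Finset.sum_nonneg fun k _ => norm_nonneg _
  have ht0 : t ≠ 0 := by
    rintro rfl
    have h1 : comp j (0 : E4 →L[ℝ] E4) = 0 := by
      unfold comp
      ext1 x
      simp
    have h2 : Φ 0 = 0 := by
      have := hh 0 0 le_rfl
      rw [zs] at this
      rw [this]
      exact zero_smul ℝ _
    rw [h1, h2] at hlt
    simp at hlt
  have hn : 0 < ‖t‖ := norm_pos_iff.mpr ht0
  have hn' : 0 ≤ ‖t‖⁻¹ := inv_nonneg.mpr hn.le
  have e1 : ∑ k, ‖(‖t‖⁻¹ • t) (qv j k)‖ = ‖t‖⁻¹ * ∑ k, ‖t (qv j k)‖ := by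
    rw [Finset.mul_sum]
    refine Finset.sum_congr rfl fun k _ => ?_
    rw [smul_apply, norm_smul, norm_inv, norm_norm]
  have e2 : Φ (comp j (‖t‖⁻¹ • t)) i = ‖t‖⁻¹ * Φ (comp j t) i := by
    rw [comp_smul, hh _ _ hn']
    rfl
  obtain ⟨x, hx⟩ := hM i (‖t‖⁻¹ • t) (ht.smul_of_nonneg hn') (by
    rw [norm_smul, norm_inv, norm_norm, inv_mul_cancel₀ hn.ne']) (by
    rw [e1, e2]
    have h1 : ε * ‖t‖ + M i * ∑ k, ‖t (qv j k)‖ < Φ (comp j t) i := by
      have := mul_le_mul_of_nonneg_right hMi hsn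
      linarith
    have h2 := mul_lt_mul_of_pos_left h1 (inv_pos.mpr hn)
    have h3 : ‖t‖⁻¹ * (ε * ‖t‖ + M i * ∑ k, ‖t (qv j k)‖) =
        ε + M i * (‖t‖⁻¹ * ∑ k, ‖t (qv j k)‖) := by
      field_simp
    linarith)
  refine ⟨x, ?_⟩
  rw [smul_apply, hd.hom] at hx
  have : 0 < |‖t‖⁻¹| := by
    rw [abs_of_nonneg hn']
    exact inv_pos.mpr hn
  exact (mul_pos_iff_of_pos_left this).mp hx

/-- the map `Ψ` of Lemma E. -/
noncomputable def Psi (h : Fin 10 → E4 → ℝ)
    (Φ : (EuclideanSpace ℝ (Fin m) →L[ℝ] EuclideanSpace ℝ (Fin m)) → Fin 10 → ℝ) (ε M : ℝ)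
    (t : E4 →L[ℝ] E4) (i : Fin 10) : ℝ :=
  ∑ k, h i (t (qv j k)) + max 0 (Φ (comp j t) i - (ε * ‖t‖ + M * ∑ k, ‖t (qv j k)‖))

/-- **Lemma E** (extension lemma), from the consequence of Lemma G which it needs. -/
theorem lemmaE_aux {h : Fin 10 → E4 → ℝ} (hd : IsData h)
    (G1 : ∀ Ψ : (E4 →L[ℝ] E4) → Fin 10 → ℝ, Continuous Ψ → (∀ t i, 0 ≤ Ψ t i) → Ψ 0 = 0 →
      (∀ t : E4 →L[ℝ] E4, t.IsPositive → t ≠ 0 → ∃ i, 0 < Ψ t i) →
      (∀ t : E4 →L[ℝ] E4, t.IsPositive → ∀ i, 0 < Ψ t i → ∃ x, 0 < h i (t x)) →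
      ∃ B : E4 →L[ℝ] E4, B.IsPositive ∧ ∀ i, 0 < Ψ B i) (m : ℕ)
    (j : EuclideanSpace ℝ (Fin m) →ₗᵢ[ℝ] E4)
    (Φ : (EuclideanSpace ℝ (Fin m) →L[ℝ] EuclideanSpace ℝ (Fin m)) → Fin 10 → ℝ)
    (hc : Continuous Φ) (hh : ∀ (r : ℝ) s, 0 ≤ r → Φ (r • s) = r • Φ s)
    (hne : ∀ s : EuclideanSpace ℝ (Fin m) →L[ℝ] EuclideanSpace ℝ (Fin m), s.IsPositive → s ≠ 0 →
      ∃ i, 0 < Φ s i)
    (hs : ∀ s : EuclideanSpace ℝ (Fin m) →L[ℝ] EuclideanSpace ℝ (Fin m), s.IsPositive →
      ∀ i, 0 < Φ s i → ∃ x, 0 < h i (j (s x))) :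
    ∃ s : EuclideanSpace ℝ (Fin m) →L[ℝ] EuclideanSpace ℝ (Fin m), s.IsPositive ∧
      ∀ W : Submodule ℝ E4, (∀ i, 0 < Φ s i → ∀ w ∈ W, h i w = 0) → finrank ℝ W + m ≤ 4 := by
  by_contra hcon
  push Not at hcon
  obtain ⟨ε, hε, hεp⟩ := exists_eps Φ hc hh hne
  obtain ⟨M, hM0, hM⟩ := exists_M j hd Φ hc hh hs hε
  have hΦ0 : Φ 0 = 0 := by
    have := hh 0 0 le_rfl
    rw [zs] at this
    rw [this]
    exact zero_smul ℝ _
  have hcomp0 : comp j (0 : E4 →L[ℝ] E4) = 0 := by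
    unfold comp
    ext1 x
    simp
  have hsumnn : ∀ (t : E4 →L[ℝ] E4) (i : Fin 10), 0 ≤ ∑ k, h i (t (qv j k)) := fun t i =>
    Finset.sum_nonneg fun k _ => hd.nonneg i _
  -- the colours of `Ψ t` are colours of the range of `t`
  have hcol : ∀ t : E4 →L[ℝ] E4, t.IsPositive → ∀ i, 0 < Psi j h Φ ε M t i →
      ∃ x, 0 < h i (t x) := by
    intro t ht i hi
    by_cases h1 : ∃ k, 0 < h i (t (qv j k))
    · obtain ⟨k, hk⟩ := h1
      exact ⟨_, hk⟩
    · push Not at h1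
      have h2 : ∑ k, h i (t (qv j k)) ≤ 0 := Finset.sum_nonpos fun k _ => h1 k
      unfold Psi at hi
      have h3 : 0 < max 0 (Φ (comp j t) i - (ε * ‖t‖ + M * ∑ k, ‖t (qv j k)‖)) := by linarith
      rcases lt_max_iff.mp h3 with h4 | h4
      · exact absurd h4 (lt_irrefl _)
      · exact hM t ht i (by linarith)
  have hΨc : Continuous (Psi j h Φ ε M) := by
    refine continuous_pi fun i => ?_
    unfold Psi
    have h1 : Continuous fun t : E4 →L[ℝ] E4 => ∑ k, h i (t (qv j k)) :=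
      continuous_finsetSum _ fun k _ => (hd.cont i).comp (by fun_prop)
    have h2 : Continuous fun t : E4 →L[ℝ] E4 => Φ (comp j t) i :=
      (continuous_apply i).comp (hc.comp (continuous_comp j))
    have h3 : Continuous fun t : E4 →L[ℝ] E4 => ε * ‖t‖ + M * ∑ k, ‖t (qv j k)‖ := by fun_prop
    exact h1.add (continuous_const.max (h2.sub h3))
  have hnn : ∀ t i, 0 ≤ Psi j h Φ ε M t i := fun t i =>
    add_nonneg (hsumnn t i) (le_max_left _ _)
  have hΨ0 : Psi j h Φ ε M 0 = 0 := by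
    funext i
    unfold Psi
    rw [hcomp0, hΦ0]
    simp [h_zero hd]
  have hnz : ∀ t : E4 →L[ℝ] E4, t.IsPositive → t ≠ 0 → ∃ i, 0 < Psi j h Φ ε M t i := by
    intro t ht ht0
    by_cases h1 : ∃ k, t (qv j k) ≠ 0
    · obtain ⟨k, hk⟩ := h1
      obtain ⟨i, hi⟩ := hd.pos _ hk
      refine ⟨i, ?_⟩
      have h2 : h i (t (qv j k)) ≤ ∑ k, h i (t (qv j k)) :=
        Finset.single_le_sum (f := fun k => h i (t (qv j k))) (fun k _ => hd.nonneg i _)
          (Finset.mem_univ k)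
      have h3 := le_max_left 0 (Φ (comp j t) i - (ε * ‖t‖ + M * ∑ k, ‖t (qv j k)‖))
      unfold Psi
      linarith
    · push Not at h1
      have h4 := eq_of_comp_qq j ht.isSelfAdjoint (comp_qq_of_qv j h1)
      have hc0 : comp j t ≠ 0 := by
        intro h5
        rw [h5] at h4
        apply ht0
        rw [h4]
        simp
      obtain ⟨i, hi⟩ := hεp _ (comp_pos j ht) hc0
      refine ⟨i, ?_⟩
      have h6 : ‖t‖ ≤ ‖comp j t‖ := by
        have hj : ‖jc j‖ ≤ 1 := j.norm_toContinuousLinearMap_le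
        have hja : ‖ContinuousLinearMap.adjoint (jc j)‖ ≤ 1 := by
          rw [LinearIsometryEquiv.norm_map]
          exact hj
        calc ‖t‖ = ‖(jc j) ∘L (comp j t) ∘L (ContinuousLinearMap.adjoint (jc j))‖ := by
              conv_lhs => rw [h4]
          _ ≤ ‖jc j‖ * ‖(comp j t) ∘L (ContinuousLinearMap.adjoint (jc j))‖ :=
              ContinuousLinearMap.opNorm_comp_le _ _
          _ ≤ ‖jc j‖ * (‖comp j t‖ * ‖ContinuousLinearMap.adjoint (jc j)‖) := by
              gcongr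
              exact ContinuousLinearMap.opNorm_comp_le _ _
          _ ≤ 1 * (‖comp j t‖ * 1) := by gcongr
          _ = ‖comp j t‖ := by ring
      have h7 : ∑ k, ‖t (qv j k)‖ = 0 := Finset.sum_eq_zero fun k _ => by rw [h1 k, norm_zero]
      unfold Psi
      rw [h7, mul_zero, add_zero]
      have h8 := mul_le_mul_of_nonneg_left h6 hε.le
      have h9 : 0 < Φ (comp j t) i - ε * ‖t‖ := by linarith
      have h10 := hsumnn t i
      have h11 := le_max_right 0 (Φ (comp j t) i - ε * ‖t‖)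
      linarith
  obtain ⟨B, hB, hfull⟩ := G1 (Psi j h Φ ε M) hΨc hnn hΨ0 hnz hcol
  obtain ⟨W, hW, hWd⟩ := hcon (comp j B) (comp_pos j hB)
  -- a nonzero vector of `W` orthogonal to the vectors `B q_k`
  set U : Submodule ℝ E4 := LinearMap.range (jc j).toLinearMap with hU
  set S : Submodule ℝ E4 := Submodule.map B.toLinearMap Uᗮ with hS
  have hUf : finrank ℝ U = m := by
    have h1 : Function.Injective (jc j).toLinearMap := j.injective
    rw [hU, LinearMap.finrank_range_of_inj h1, finrank_euclideanSpace, Fintype.card_fin]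
  have hUo : finrank ℝ Uᗮ + m = 4 := by
    have h1 := Submodule.finrank_add_finrank_orthogonal U
    rw [hUf, finrank_euclideanSpace, Fintype.card_fin] at h1
    omega
  have hSf : finrank ℝ S ≤ finrank ℝ Uᗮ := Submodule.finrank_map_le _ _
  have hSo : m ≤ finrank ℝ Sᗮ := by
    have h1 := Submodule.finrank_add_finrank_orthogonal S
    rw [finrank_euclideanSpace, Fintype.card_fin] at h1
    omega
  have hinter : 0 < finrank ℝ (W ⊓ Sᗮ : Submodule ℝ E4) := by
    have h1 := Submodule.finrank_sup_add_finrank_inf_eq W Sᗮ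
    have h2 : finrank ℝ (W ⊔ Sᗮ : Submodule ℝ E4) ≤ 4 := by
      have := Submodule.finrank_le (W ⊔ Sᗮ)
      rwa [finrank_euclideanSpace, Fintype.card_fin] at this
    omega
  obtain ⟨⟨z, hz⟩, hz0⟩ := Module.finrank_pos_iff_exists_ne_zero.mp hinter
  have hz0' : z ≠ 0 := by
    intro h0
    apply hz0
    ext1
    exact h0
  obtain ⟨i, hi⟩ := hd.pos z hz0'
  have hzW := (Submodule.mem_inf.mp hz).1
  have hzS := (Submodule.mem_inf.mp hz).2
  have hq : ∀ k, h i (B (qv j k)) = 0 := by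
    intro k
    have hqU : qv j k ∈ Uᗮ := by
      rw [Submodule.mem_orthogonal]
      rintro u ⟨x, rfl⟩
      exact qv_inner j k x
    have h1 : inner ℝ (B (qv j k)) z = 0 := by
      rw [Submodule.mem_orthogonal] at hzS
      exact hzS _ ⟨qv j k, hqU, rfl⟩
    rcases hd.orth i _ _ h1 with h2 | h2
    · exact h2
    · linarith
  have h1 := hfull i
  unfold Psi at h1
  rw [Finset.sum_eq_zero (fun k _ => hq k), zero_add] at h1
  have hsn : 0 ≤ ∑ k, ‖B (qv j k)‖ := Finset.sum_nonneg fun k _ => norm_nonneg _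
  rcases lt_max_iff.mp h1 with h2 | h2
  · exact absurd h2 (lt_irrefl _)
  · have h3 : 0 < Φ (comp j B) i := by
      have := mul_nonneg hε.le (norm_nonneg B)
      have := mul_nonneg hM0 hsn
      linarith
    have := hW i h3 z hzW
    linarith

/-- **Lemma E** from the general form of Lemma G. -/
theorem lemmaE_of_G (G : LemG) {h : Fin 10 → E4 → ℝ} (hd : IsData h) (m : ℕ)
    (j : EuclideanSpace ℝ (Fin m) →ₗᵢ[ℝ] E4)
    (Φ : (EuclideanSpace ℝ (Fin m) →L[ℝ] EuclideanSpace ℝ (Fin m)) → Fin 10 → ℝ)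
    (hc : Continuous Φ) (hh : ∀ (r : ℝ) s, 0 ≤ r → Φ (r • s) = r • Φ s)
    (hne : ∀ s : EuclideanSpace ℝ (Fin m) →L[ℝ] EuclideanSpace ℝ (Fin m), s.IsPositive → s ≠ 0 →
      ∃ i, 0 < Φ s i)
    (hs : ∀ s : EuclideanSpace ℝ (Fin m) →L[ℝ] EuclideanSpace ℝ (Fin m), s.IsPositive →
      ∀ i, 0 < Φ s i → ∃ x, 0 < h i (j (s x))) :
    ∃ s : EuclideanSpace ℝ (Fin m) →L[ℝ] EuclideanSpace ℝ (Fin m), s.IsPositive ∧
      ∀ W : Submodule ℝ E4, (∀ i, 0 < Φ s i → ∀ w ∈ W, h i w = 0) → finrank ℝ W + m ≤ 4 := by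
  refine lemmaE_aux hd (fun Ψ hΨc hnn hΨ0 hnz hcol => ?_) m j Φ hc hh hne hs
  have hdisj : ∀ B B' : E4 →L[ℝ] E4, B.IsPositive → B'.IsPositive → B ∘L B' = 0 →
      ∀ i, Ψ B i = 0 ∨ Ψ B' i = 0 := by
    intro B B' hB hB' h0 i
    by_contra hne'
    push Not at hne'
    obtain ⟨x, hx⟩ := hcol B hB i (lt_of_le_of_ne (hnn B i) (Ne.symm hne'.1))
    obtain ⟨y, hy⟩ := hcol B' hB' i (lt_of_le_of_ne (hnn B' i) (Ne.symm hne'.2))
    rcases hd.orth i (B x) (B' y) (inner_of_comp_zero hB h0 x y) with h1 | h1 <;> linarith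
  obtain ⟨B, B', hB, hB', -, c, hcpos, heq⟩ := G Ψ hΨc.continuousOn
    (fun t _ i => hnn t i) hΨ0 hnz hdisj (fun _ => 1) (by
      intro h0
      have := congrFun h0 0
      simp at this)
  refine ⟨B, hB, fun i => ?_⟩
  have h1 := heq i
  have h2 := hnn B' i
  linarith

end

end Vale.Agent.P052.H38
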