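import Mathlib
import Vale.Agent.P052.R2.H97.RankR
import Vale.Agent.P052.R2.H97.WV
import Vale.Agent.P052.R2.H381.Surj
import Vale.Agent.P052.R2.H381.Facet
import Vale.Agent.P052.R2.H140.Core
import Vale.Agent.P052.R2.H495.LemL
import Vale.Agent.P052.R2.H38.LemE

/-!
# P052: assembly of the plain Borsuk-Ulam route

Ten continuous, even, homogeneous, nonnegative functions on `ℝ⁴` without common zero off the
origin, none of them positive at two orthogonal vectors, do not exist.
-/

namespace Vale.Agent.P052.H38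

open Module P052.H97 Vale.Agent.P052.R2

variable {h : Fin 10 → E4 → ℝ}

/-- Lemma E. -/
theorem lemmaE (hd : IsData h) (m : ℕ) (j : EuclideanSpace ℝ (Fin m) →ₗᵢ[ℝ] E4)
    (Φ : (EuclideanSpace ℝ (Fin m) →L[ℝ] EuclideanSpace ℝ (Fin m)) → Fin 10 → ℝ)
    (hc : Continuous Φ) (hh : ∀ (r : ℝ) s, 0 ≤ r → Φ (r • s) = r • Φ s)
    (hne : ∀ s : EuclideanSpace ℝ (Fin m) →L[ℝ] EuclideanSpace ℝ (Fin m), s.IsPositive → s ≠ 0 →
      ∃ i, 0 < Φ s i)
    (hs : ∀ s : EuclideanSpace ℝ (Fin m) →L[ℝ] EuclideanSpace ℝ (Fin m), s.IsPositive →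
      ∀ i, 0 < Φ s i → ∃ x, 0 < h i (j (s x))) :
    ∃ s : EuclideanSpace ℝ (Fin m) →L[ℝ] EuclideanSpace ℝ (Fin m), s.IsPositive ∧
      ∀ W : Submodule ℝ E4, (∀ i, 0 < Φ s i → ∀ w ∈ W, h i w = 0) → finrank ℝ W + m ≤ 4 := by
  refine lemmaE_aux hd (fun Ψ hΨc hnn _ hnz hcol => ?_) m j Φ hc hh hne hs
  obtain ⟨P, N, hP, -, -, r, hr, heq⟩ := H381.lemmaG hd Ψ hΨc.continuousOn
    (fun t _ i => hnn t i) hnz hcol (fun _ => 1) (fun _ => by norm_num)
  refine ⟨P, hP, fun i => ?_⟩
  have h1 := heq i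
  have h2 := hnn N i
  linarith

/-- Lemma L. -/
theorem lemmaL (hd : IsData h) (I : Finset (Fin 10)) (h2 : R h I 2) (h1 : ¬ R h I 1)
    (o : Fin 10) (ho : o ∈ I) : ∃ T ⊆ I, o ∈ T ∧ T.card = 3 ∧ ¬ R h T 1 := by
  have hs := H381.surj hd
  have hc := H381.count hd
  obtain ⟨U, hU, -⟩ := surj_iff hs I
  exact H495.lemL hd.cont hd.hom hd.pos
    (fun j Φ a1 a2 _ a3 a4 => lemmaE hd 2 j Φ a1 a2 a3 a4)
    (fun T hT => R_one_of_card hd hs hc hT) I U (finrank_eq_two hd hs hU h2 h1) hU o ho

/-- the statement of module WV. -/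
def WV (h : Fin 10 → E4 → ℝ) : Prop := ∀ (t : Finset (Fin 10)) (o : Fin 10),
  t.card = 3 → o ∉ t → R h (insert o t) 1 → ∃ e, e ∉ t ∧ e ≠ o ∧ R h (insert e t) 1

/-- The contradiction. -/
theorem false_of_WV (hd : IsData h) (hwv : WV h) : False := by
  classical
  have hs := H381.surj hd
  have hc := H381.count hd
  refine H140.core (α := Fin 10) (by simp) (fun I => R h I 1) ?_ ?_ ?_ ?_ ?_
  · intro S T hST hT
    exact R_mono hST le_rfl hT
  · obtain ⟨x, hx, A, hA, hAx⟩ := H381.exists_facet h hd.cont (fun i x => by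
      have := hd.hom i (-1) x
      simpa using this) hd.nonneg hd.pos (fun i x y hxy hh => by
      rcases hd.orth i x y hxy with h1 | h1 <;> linarith [hh.1, hh.2])
    exact ⟨A, hA, R_point hd hs hAx⟩
  · intro A B hA hB hfA hfB hAB
    refine R_cover_ne hd hfA hfB (C := (A ∪ B)ᶜ) (R_one_of_card hd hs hc ?_) ?_
    · rw [Finset.card_compl, Finset.card_union_of_disjoint hAB, hA, hB]
      simp
    · exact Finset.union_compl (A ∪ B)
  · intro A x o hA hfA hx ho
    have hI : (insert x A).card = 5 := by rw [Finset.card_insert_of_notMem hx, hA]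
    obtain ⟨T, hT, hxT, hT3, hTf⟩ := lemmaL hd (insert x A) (R_two_of_card hd hs hc (by omega))
      (fun h1 => by
        have := R_one_card_le hd hs hc h1
        omega) o (Finset.mem_insert_of_mem ho)
    have hxT' : x ∈ T := by
      by_contra hxn
      exact hTf (R_mono (fun i hi => (Finset.mem_insert.mp (hT hi)).resolve_left
        (fun h => hxn (h ▸ hi))) le_rfl hfA)
    have hxo : x ≠ o := fun h => hx (h ▸ ho)
    obtain ⟨y, hyT, hyx⟩ : ∃ y ∈ T, y ∉ ({x, o} : Finset (Fin 10)) := by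
      by_contra hcon
      push Not at hcon
      have h1 : T.card ≤ ({x, o} : Finset (Fin 10)).card := Finset.card_le_card hcon
      have h2 : ({x, o} : Finset (Fin 10)).card ≤ 2 := Finset.card_le_two
      omega
    simp only [Finset.mem_insert, Finset.mem_singleton, not_or] at hyx
    refine ⟨y, (Finset.mem_insert.mp (hT hyT)).resolve_left hyx.1, hyx.2, fun hf => hTf ?_⟩
    have hTeq : ({o, x, y} : Finset (Fin 10)) = T := by
      refine Finset.eq_of_subset_of_card_le ?_ ?_
      · intro i hi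
        simp only [Finset.mem_insert, Finset.mem_singleton] at hi
        rcases hi with rfl | rfl | rfl
        · exact hxT
        · exact hxT'
        · exact hyT
      · rw [hT3, Finset.card_insert_of_notMem, Finset.card_insert_of_notMem,
          Finset.card_singleton]
        · simp only [Finset.mem_singleton]
          exact fun h => hyx.1 h.symm
        · simp only [Finset.mem_insert, Finset.mem_singleton, not_or]
          exact ⟨fun h => hxo h.symm, fun h => hyx.2 h.symm⟩
    rw [← hTeq]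
    exact hf
  · intro A a hA hfA ha
    obtain ⟨e, he, hea, hef⟩ := hwv (A.erase a) a (by rw [Finset.card_erase_of_mem ha, hA])
      (Finset.notMem_erase a A) (by rwa [Finset.insert_erase ha])
    refine ⟨e, fun heA => he (Finset.mem_erase.mpr ⟨hea, heA⟩), hef⟩

/-- Module WV holds. -/
theorem wv_holds (hd : IsData h) : WV h := by
  intro t o ht ho hR
  exact wv (fun m j Φ a1 a2 _ a3 a4 => lemmaE hd m j Φ a1 a2 a3 a4) hd (H381.surj hd) t o ht ho hR

/-- **The main theorem**: there are no such functions. -/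
theorem not_isData (h : Fin 10 → E4 → ℝ) : ¬ IsData h :=
  fun hd => false_of_WV hd (wv_holds hd)

/-- Borsuk's conjecture fails in every dimension at least nine. -/
theorem borsuk_nine : ∀ d : ℕ, 9 ≤ d →
    ∃ Y : Set (EuclideanSpace ℝ (Fin d)), IsCompact Y ∧ 0 < Metric.diam Y ∧
      ∀ P : Fin (d + 1) → Set (EuclideanSpace ℝ (Fin d)), (⋃ i, P i) = Y →
        ∃ i, Metric.diam (P i) = Metric.diam Y :=
  result_of_core (core_of_data not_isData)

end Vale.Agent.P052.H38
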