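import Mathlib.Analysis.InnerProductSpace.Positive
import Mathlib.Analysis.InnerProductSpace.PiL2
import Mathlib.Analysis.InnerProductSpace.Adjoint
import Mathlib.Topology.MetricSpace.Bounded
import Mathlib.Data.Finset.Card
import Mathlib.LinearAlgebra.Dimension.Finrank

/-!
# P052, Borsuk fails in dimension 9: statements of the modules (Borsuk-Ulam only route)

`Col n ι` : a colour system on `ℝ^n` (the continuous even homogeneous functions `h i`).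
Every module is a `def ... : Prop`; the assembly is proved from them.
-/

namespace Vale.Agent.P052.Nine

open Module

/-- `ℝ^n` with the Euclidean norm. -/
abbrev EE (n : ℕ) := EuclideanSpace ℝ (Fin n)

/-- operators of `ℝ^n`. -/
abbrev Op (n : ℕ) := EE n →L[ℝ] EE n

/-- A colour system: continuous, nonnegative, even, homogeneous functions without common zero
outside `0`; orthogonal vectors never share a colour. -/
structure Col (n : ℕ) (ι : Type) where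
  h : ι → EE n → ℝ
  cont : ∀ i, Continuous (h i)
  nonneg : ∀ i v, 0 ≤ h i v
  hom : ∀ i (r : ℝ) v, h i (r • v) = |r| * h i v
  pos : ∀ v, v ≠ 0 → ∃ i, 0 < h i v
  orth : ∀ i v w, inner ℝ v w = 0 → h i v = 0 ∨ h i w = 0

/-- `r(I) ≤ d`: the colours of `I` vanish on a subspace of codimension `≤ d`. -/
def Col.R {n : ℕ} {ι : Type} (c : Col n ι) (I : Finset ι) (d : ℕ) : Prop :=
  ∃ W : Submodule ℝ (EE n), n ≤ finrank ℝ W + d ∧ ∀ i ∈ I, ∀ w ∈ W, c.h i w = 0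

/-- M1a. Positive part of symmetric operators, continuous. -/
def StPosPart : Prop := ∀ n : ℕ, ∃ pp : Op n → Op n,
  ContinuousOn pp {A | A.IsSymmetric} ∧
  ∀ A : Op n, A.IsSymmetric →
    (pp A).IsPositive ∧ (pp A - A).IsPositive ∧ (pp A) ∘L (pp A - A) = 0 ∧ pp (-A) = pp A - A

/-- M1b. Lemma G (Borsuk-Ulam on symmetric operators). -/
def StLemG : Prop := ∀ (n : ℕ) (ι : Type) [Fintype ι] (c : Col n ι),
  Fintype.card ι ≤ n * (n + 1) / 2 →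
  ∀ Ψ : Op n → ι → ℝ, ContinuousOn Ψ {A | A.IsPositive} → Ψ 0 = 0 →
    (∀ B : Op n, B.IsPositive → ∀ i, 0 ≤ Ψ B i) →
    (∀ B : Op n, B.IsPositive → B ≠ 0 → ∃ i, 0 < Ψ B i) →
    (∀ B : Op n, B.IsPositive → ∀ i, 0 < Ψ B i → ∃ x, 0 < c.h i (B x)) →
    ∀ v : ι → ℝ, v ≠ 0 →
      ∃ B C : Op n, B.IsPositive ∧ C.IsPositive ∧ B ∘L C = 0 ∧
        ∃ r : ℝ, 0 < r ∧ ∀ i, Ψ B i - Ψ C i = r * v i

/-- M1c. number of colours. -/
def StBound : Prop := ∀ (n : ℕ) (ι : Type) [Fintype ι], Col n ι → n * (n + 1) / 2 ≤ Fintype.card ι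

/-- M2a. Surjectivity. -/
def StSurj : Prop := ∀ (c : Col 4 (Fin 10)) (I : Finset (Fin 10)),
  ∃ U : Submodule ℝ (EE 4), (∀ i, i ∈ I ↔ ∃ u ∈ U, 0 < c.h i u) ∧
    (∀ i, i ∉ I ↔ ∃ w ∈ Uᗮ, 0 < c.h i w)

/-- M2b. the bound inside a subspace. -/
def StBoundSub : Prop := ∀ (c : Col 4 (Fin 10)) (U : Submodule ℝ (EE 4)) (I : Finset (Fin 10)),
  (∀ i, (∃ u ∈ U, 0 < c.h i u) → i ∈ I) → finrank ℝ U * (finrank ℝ U + 1) / 2 ≤ I.card

/-- M3. Lemma E (extension lemma). -/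
def StLemE : Prop := ∀ (c : Col 4 (Fin 10)) (m : ℕ) (j : EE m →ₗᵢ[ℝ] EE 4)
  (Φ : Op m → Fin 10 → ℝ), Continuous Φ → (∀ (r : ℝ) (s : Op m), 0 ≤ r → Φ (r • s) = r • Φ s) →
  (∀ s : Op m, s.IsPositive → ∀ i, 0 ≤ Φ s i) →
  (∀ s : Op m, s.IsPositive → s ≠ 0 → ∃ i, 0 < Φ s i) →
  (∀ s : Op m, s.IsPositive → ∀ i, 0 < Φ s i → ∃ x, 0 < c.h i (j (s x))) →
  ∃ s : Op m, s.IsPositive ∧ ∀ W : Submodule ℝ (EE 4),
    (∀ i, 0 < Φ s i → ∀ w ∈ W, c.h i w = 0) → finrank ℝ W + m ≤ 4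

/-- M4. Lemma L. -/
def StLemL : Prop := ∀ (c : Col 4 (Fin 10)) (I : Finset (Fin 10)), c.R I 2 → ¬ c.R I 1 →
  ∀ o ∈ I, ∃ T ⊆ I, o ∈ T ∧ T.card = 3 ∧ ¬ c.R T 1

/-- M5. Lemma WV. -/
def StLemWV : Prop := ∀ (c : Col 4 (Fin 10)) (t : Finset (Fin 10)) (o : Fin 10),
  t.card = 3 → o ∉ t → c.R (insert o t) 1 → ∃ e, e ∉ t ∧ e ≠ o ∧ c.R (insert e t) 1

/-- M6. a facet exists. -/
def StFacet : Prop := ∀ c : Col 4 (Fin 10), ∃ I : Finset (Fin 10), I.card = 4 ∧ c.R I 1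

/-- M7. the finite core. -/
def StFinite : Prop := ∀ K : Finset (Fin 10) → Prop,
  (∀ I J, I ⊆ J → K J → K I) → (∀ I, I.card ≤ 2 → K I) → (∀ I, K I → I.card ≤ 4) →
  (∃ I, I.card = 4 ∧ K I) →
  (∀ I J L, K I → K J → K L → I ∪ J ∪ L ≠ Finset.univ) →
  (∀ I : Finset (Fin 10), I.card = 4 ∨ I.card = 5 → ¬ K I →
    ∀ o ∈ I, ∃ T ⊆ I, o ∈ T ∧ T.card = 3 ∧ ¬ K T) →
  (∀ (t : Finset (Fin 10)) (o : Fin 10), t.card = 3 → o ∉ t → K (insert o t) →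
    ∃ e, e ∉ t ∧ e ≠ o ∧ K (insert e t)) → False

/-- M8. the core theorem about covers of the sphere. -/
def StCover : Prop := (∀ _ : Col 4 (Fin 10), False) →
  ∀ F : Fin 10 → Set (EE 4), (∀ i, IsClosed (F i)) → (∀ x, ‖x‖ = 1 → ∃ i, x ∈ F i) →
    ∃ i, ∃ x ∈ F i, ∃ y ∈ F i, ‖x‖ = 1 ∧ ‖y‖ = 1 ∧ inner ℝ x y = 0

/-- the core theorem. -/
def StCore : Prop := ∀ F : Fin 10 → Set (EE 4), (∀ i, IsClosed (F i)) →
  (∀ x, ‖x‖ = 1 → ∃ i, x ∈ F i) →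
    ∃ i, ∃ x ∈ F i, ∃ y ∈ F i, ‖x‖ = 1 ∧ ‖y‖ = 1 ∧ inner ℝ x y = 0

/-- the final statement (helper573). -/
def StFinal : Prop := ∀ d : ℕ, 9 ≤ d → ∃ Y : Set (EuclideanSpace ℝ (Fin d)), IsCompact Y ∧
  0 < Metric.diam Y ∧ ∀ P : Fin (d + 1) → Set (EuclideanSpace ℝ (Fin d)), (⋃ i, P i) = Y →
    ∃ i, Metric.diam (P i) = Metric.diam Y

end Vale.Agent.P052.Nine
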